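import Vale.Agent.P102.H696.Flow
import Vale.Agent.P102.RM.Red
import Mathlib.MeasureTheory.Measure.MeasuredSets
import Mathlib.MeasureTheory.Measure.Prokhorov
import Mathlib.MeasureTheory.Measure.Portmanteau

/-!
# P102: multiple mixing for endomorphisms, from multiple mixing for automorphisms
(natural extension of the symbolic factor of finitely many sets)
-/

set_option linter.all false

namespace Vale.Agent.P102.H696

open MeasureTheory Filter Topology Set Vale.Agent.P102.RM
open scoped NNReal ENNReal symmDiff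

/-- two-sided sequences -/
abbrev XX (k : ℕ) := ℤ → (Fin k → Bool)

/-- sets which depend on the coordinates in `[-a, a]` only -/
def Dep {k : ℕ} (a : ℕ) (C : Set (XX k)) : Prop :=
  ∀ x y : XX k, (∀ n : ℤ, |n| ≤ a → x n = y n) → (x ∈ C ↔ y ∈ C)

/-- sets which depend on finitely many coordinates -/
def CC (k : ℕ) : Set (Set (XX k)) := {C | ∃ a, Dep a C}

section dep

variable {k : ℕ}

theorem Dep.mono {a b : ℕ} {C : Set (XX k)} (h : Dep a C) (hab : a ≤ b) : Dep b C :=
  fun x y hxy => h x y fun n hn => hxy n (hn.trans (by exact_mod_cast hab))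

theorem Dep.union {a : ℕ} {C D : Set (XX k)} (hC : Dep a C) (hD : Dep a D) : Dep a (C ∪ D) :=
  fun x y hxy => by rw [Set.mem_union, Set.mem_union, hC x y hxy, hD x y hxy]

theorem Dep.inter {a : ℕ} {C D : Set (XX k)} (hC : Dep a C) (hD : Dep a D) : Dep a (C ∩ D) :=
  fun x y hxy => by rw [Set.mem_inter_iff, Set.mem_inter_iff, hC x y hxy, hD x y hxy]

theorem Dep.diff {a : ℕ} {C D : Set (XX k)} (hC : Dep a C) (hD : Dep a D) : Dep a (C \ D) :=
  fun x y hxy => by rw [Set.mem_sdiff, Set.mem_sdiff, hC x y hxy, hD x y hxy]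

theorem Dep.isClopen {a : ℕ} {C : Set (XX k)} (hC : Dep a C) : IsClopen C := by
  set r : XX k → (Finset.Icc (-(a : ℤ)) a → (Fin k → Bool)) := fun x n => x n with hr
  have hrc : Continuous r := by fun_prop
  have e : C = r ⁻¹' (r '' C) := by
    ext x
    constructor
    · exact fun h => ⟨x, h, rfl⟩
    · rintro ⟨y, hy, hxy⟩
      refine (hC x y fun n hn => ?_).2 hy
      have hn' := abs_le.1 hn
      have := congrFun hxy ⟨n, Finset.mem_Icc.2 hn'⟩
      exact this.symm
  rw [e]
  exact (isClopen_discrete _).preimage hrc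

theorem Dep.measurableSet {a : ℕ} {C : Set (XX k)} (hC : Dep a C) : MeasurableSet C :=
  hC.isClopen.2.measurableSet

theorem isSetRing_CC (k : ℕ) : IsSetRing (CC k) where
  empty_mem := ⟨0, fun x y _ => by simp⟩
  union_mem := by
    rintro s t ⟨a, ha⟩ ⟨b, hb⟩
    exact ⟨max a b, (ha.mono (le_max_left _ _)).union (hb.mono (le_max_right _ _))⟩
  sdiff_mem := by
    rintro s t ⟨a, ha⟩ ⟨b, hb⟩
    exact ⟨max a b, (ha.mono (le_max_left _ _)).diff (hb.mono (le_max_right _ _))⟩

theorem generate_CC (k : ℕ) :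
    (inferInstance : MeasurableSpace (XX k)) = MeasurableSpace.generateFrom (CC k) := by
  refine le_antisymm ?_ ?_
  · refine iSup_le fun n => ?_
    rintro s ⟨B, hB, rfl⟩
    refine MeasurableSpace.measurableSet_generateFrom ⟨n.natAbs, fun x y hxy => ?_⟩
    have : x n = y n := hxy n (by rw [Int.natCast_natAbs])
    rw [Set.mem_preimage, Set.mem_preimage, this]
  · refine MeasurableSpace.generateFrom_le ?_
    rintro s ⟨a, ha⟩
    exact ha.measurableSet

end dep

section code

variable {Ω : Type*} [MeasurableSpace Ω] {μ : Measure Ω} [IsProbabilityMeasure μ] {k : ℕ}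
  (T : Ω → Ω) (A : Fin k → Set Ω)

open Classical in
/-- the itinerary of `ω`, delayed by `m` -/
noncomputable def code (m : ℕ) (ω : Ω) : XX k := fun n i => decide (T^[(n + m).toNat] ω ∈ A i)

theorem code_add {m j : ℕ} {n : ℤ} (hn : -(m : ℤ) ≤ n) (ω : Ω) :
    code T A (m + j) ω n = code T A m (T^[j] ω) n := by
  funext i
  unfold code
  have : (n + ((m + j : ℕ) : ℤ)).toNat = (n + m).toNat + j := by omega
  rw [this, Function.iterate_add_apply]

theorem code_shift {m j : ℕ} {n : ℤ} (ω : Ω) :
    code T A m ω (n + j) = code T A (m + j) ω n := by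
  funext i
  unfold code
  have : (n + j + m).toNat = (n + ((m + j : ℕ) : ℤ)).toNat := by omega
  rw [this]

theorem measurable_code (hT : Measurable T) (hA : ∀ i, MeasurableSet (A i)) (m : ℕ) :
    Measurable (code T A m) := by
  refine measurable_pi_lambda _ fun n => measurable_pi_lambda _ fun i => ?_
  refine measurable_to_bool ?_
  have : (fun ω => code T A m ω n i) ⁻¹' {true} = T^[(n + m).toNat] ⁻¹' A i := by
    ext ω
    simp [code]
  rw [this]
  exact (hT.iterate _) (hA i)

theorem code_preimage {a m : ℕ} {C : Set (XX k)} (hC : Dep a C) (h : a ≤ m) :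
    code T A m ⁻¹' C = T^[m - a] ⁻¹' (code T A a ⁻¹' C) := by
  ext ω
  rw [Set.mem_preimage, Set.mem_preimage, Set.mem_preimage]
  refine hC _ _ fun n hn => ?_
  have hn' := (abs_le.1 hn).1
  have e : a + (m - a) = m := by omega
  have := code_add T A (m := a) (j := m - a) hn' ω
  rw [e] at this
  exact this

/-- the natural extension -/
theorem exists_ext (hT : MeasurePreserving T μ μ) (hA : ∀ i, MeasurableSet (A i)) :
    ∃ ν : Measure (XX k), IsProbabilityMeasure ν ∧
      ∀ a C, Dep a C → ∀ m, a ≤ m → ν.real C = μ.real (code T A m ⁻¹' C) := by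
  have hc := measurable_code T A hT.measurable hA
  have hp : ∀ m, IsProbabilityMeasure (μ.map (code T A m)) := fun m =>
    Measure.isProbabilityMeasure_map (hc m).aemeasurable
  set ν : ℕ → ProbabilityMeasure (XX k) := fun m => ⟨μ.map (code T A m), hp m⟩ with hν
  obtain ⟨ν0, -, h0⟩ := isCompact_univ.ultrafilter_le_nhds' ((hyperfilter ℕ).map ν) Filter.univ_mem
  have hlim : Tendsto ν (hyperfilter ℕ : Filter ℕ) (𝓝 ν0) := h0
  refine ⟨(ν0 : Measure (XX k)), inferInstance, fun a C hC m hm => ?_⟩
  have h1 := ProbabilityMeasure.tendsto_measure_of_isClopen_of_tendsto hlim hC.isClopen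
  have h2 : ∀ n, a ≤ n → ((ν n) C : ℝ≥0) = (μ (code T A a ⁻¹' C)).toNNReal := by
    intro n hn
    have : ((ν n : Measure (XX k)) C) = μ (code T A a ⁻¹' C) := by
      rw [hν]
      change (μ.map (code T A n)) C = _
      rw [Measure.map_apply (hc n) hC.measurableSet, code_preimage T A hC hn,
        (hT.iterate _).measure_preimage ((hc a) hC.measurableSet).nullMeasurableSet]
    rw [← this]
    rfl
  have h3 : ∀ᶠ n in (hyperfilter ℕ : Filter ℕ), a ≤ n :=
    (Nat.hyperfilter_le_atTop) (eventually_ge_atTop a)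
  have h4 : Tendsto (fun n => (ν n) C) (hyperfilter ℕ : Filter ℕ)
      (𝓝 (μ (code T A a ⁻¹' C)).toNNReal) :=
    tendsto_const_nhds.congr' (h3.mono fun n hn => (h2 n hn).symm)
  have h5 := tendsto_nhds_unique h1 h4
  have h6 : (ν0 : Measure (XX k)).real C = μ.real (code T A a ⁻¹' C) := by
    have := congrArg (fun r : ℝ≥0 => (r : ℝ)) h5
    exact this
  rw [h6, code_preimage T A hC hm, measureReal_def, measureReal_def,
    (hT.iterate _).measure_preimage ((hc a) hC.measurableSet).nullMeasurableSet]

end code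

section main

variable {Ω : Type*} [MeasurableSpace Ω] {μ : Measure Ω} [IsProbabilityMeasure μ] {k : ℕ}

/-- Rokhlin's problem for automorphisms, in universe `0` -/
def AutoStmt : Prop :=
  ∀ (Ω : Type) [MeasurableSpace Ω] (μ : Measure Ω) [IsProbabilityMeasure μ] (T : Ω ≃ᵐ Ω),
    MeasurePreserving T μ μ →
    (∀ A B : Set Ω, MeasurableSet A → MeasurableSet B →
      Tendsto (fun n : ℤ => μ.real (A ∩ (T.toEquiv ^ n : Equiv.Perm Ω) ⁻¹' B)) cofinite
        (𝓝 (μ.real A * μ.real B))) →
    ∀ k : ℕ, MixingOfOrder μ T.toEquiv k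

theorem it_shift_apply (x : XX k) (j : ℤ) (n : ℤ) : it (shiftEquiv (Fin k → Bool)) j x n = x (n + j) := by
  induction j using Int.induction_on generalizing n with
  | zero => rw [it_zero, add_zero]
  | succ j ih =>
    rw [it_succ, shiftEquiv_apply, ih]
    congr 1
    ring
  | pred j ih =>
    rw [it_pred]
    change it (shiftEquiv (Fin k → Bool)) (-(j : ℤ)) x (n - 1) = _
    rw [ih]
    congr 1
    ring

theorem Dep.shift {a : ℕ} {C : Set (XX k)} (hC : Dep a C) (j : ℕ) :
    Dep (a + j) (it (shiftEquiv (Fin k → Bool)) j ⁻¹' C) := by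
  intro x y hxy
  rw [Set.mem_preimage, Set.mem_preimage]
  refine hC _ _ fun n hn => ?_
  rw [it_shift_apply, it_shift_apply]
  refine hxy _ ?_
  push_cast
  exact (abs_add_le _ _).trans (add_le_add hn (by simp))

theorem code_shift_preimage (T : Ω → Ω) (A : Fin k → Set Ω) {a m j : ℕ} {C : Set (XX k)}
    (hC : Dep a C) (h : a ≤ m) :
    code T A m ⁻¹' (it (shiftEquiv (Fin k → Bool)) j ⁻¹' C) =
      T^[m - a] ⁻¹' (T^[j] ⁻¹' (code T A a ⁻¹' C)) := by
  ext ω
  simp only [Set.mem_preimage]
  refine hC _ _ fun n hn => ?_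
  have hn' := (abs_le.1 hn).1
  rw [it_shift_apply, code_shift]
  have e : a + (m - a + j) = m + j := by omega
  have := code_add T A (m := a) (j := m - a + j) hn' ω
  rw [e] at this
  rw [this, add_comm (m - a) j, Function.iterate_add_apply]

theorem endo_mixing (Q : AutoStmt) {T : Ω → Ω} (hT : MeasurePreserving T μ μ)
    (hmix : MixingFamily μ fun n : ℕ => T^[n]) : AllOrders μ fun n : ℕ => T^[n] := by
  intro k A hA ε hε
  obtain ⟨ν, hν, hext⟩ := exists_ext T A hT hA
  set S := shiftEquiv (Fin k → Bool) with hS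
  have hc := measurable_code T A hT.measurable hA
  have hit : ∀ m, MeasurePreserving (T^[m]) μ μ := fun m => hT.iterate m
  -- invariance
  have hSν : MeasurePreserving S ν ν := by
    refine ⟨S.measurable, ?_⟩
    haveI : IsProbabilityMeasure (ν.map S) :=
      Measure.isProbabilityMeasure_map S.measurable.aemeasurable
    refine ext_of_generate_finite (CC k) (generate_CC k)
      ((isSetRing_CC k).isSetSemiring.isPiSystem) ?_ (by simp)
    rintro C ⟨a, hC⟩
    rw [Measure.map_apply S.measurable hC.measurableSet]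
    have e1 : (S : XX k → XX k) ⁻¹' C = it S (1 : ℕ) ⁻¹' C := by
      rw [Nat.cast_one, it_one]
    have h1 := hext _ _ (hC.shift 1) (a + 1) le_rfl
    rw [code_shift_preimage T A hC (Nat.le_succ a), measureReal_def, measureReal_def,
      (hit _).measure_preimage, (hit _).measure_preimage ((hc a) hC.measurableSet).nullMeasurableSet,
      ← measureReal_def (μ := μ), ← hext a C hC a le_rfl, measureReal_def,
      ENNReal.toReal_eq_toReal_iff' (measure_ne_top _ _) (measure_ne_top _ _)] at h1
    · rw [e1]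
      exact h1
    · exact ((hit _).measurable ((hc a) hC.measurableSet)).nullMeasurableSet
  -- mixing on cylinders
  have hcyl : ∀ C D : Set (XX k), ∀ a, Dep a C → Dep a D →
      Tendsto (fun j : ℕ => ν.real (C ∩ it S j ⁻¹' D)) atTop (𝓝 (ν.real C * ν.real D)) := by
    intro C D a hC hD
    have e : ∀ j : ℕ, ν.real (C ∩ it S j ⁻¹' D) =
        μ.real ((code T A a ⁻¹' C) ∩ T^[j] ⁻¹' (code T A a ⁻¹' D)) := by
      intro j
      rw [hext (a + j) _ ((hC.mono (Nat.le_add_right a j)).inter (hD.shift j)) (a + j) le_rfl,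
        Set.preimage_inter, code_preimage T A hC (Nat.le_add_right a j),
        code_shift_preimage T A hD (Nat.le_add_right a j), ← Set.preimage_inter,
        measureReal_def, (hit _).measure_preimage, ← measureReal_def]
      exact (((hc a) hC.measurableSet).inter
        ((hit j).measurable ((hc a) hD.measurableSet))).nullMeasurableSet
    simp only [e]
    rw [hext a C hC a le_rfl, hext a D hD a le_rfl]
    exact hmix _ _ ((hc a) hC.measurableSet) ((hc a) hD.measurableSet)
  -- mixing for all measurable sets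
  have hall : ∀ C D : Set (XX k), MeasurableSet C → MeasurableSet D →
      Tendsto (fun j : ℕ => ν.real (C ∩ it S j ⁻¹' D)) atTop (𝓝 (ν.real C * ν.real D)) := by
    intro C D hC hD
    rw [Metric.tendsto_atTop]
    intro δ hδ
    have hcov : ∃ DD : Set (Set (XX k)), DD.Countable ∧ DD ⊆ CC k ∧ ν (⋃₀ DD)ᶜ = 0 :=
      ⟨{univ}, Set.countable_singleton _, by
        rintro s rfl
        exact ⟨0, fun x y _ => by simp⟩, by simp⟩
    obtain ⟨C', ⟨a, hC'⟩, hC1⟩ := exists_measure_symmDiff_lt_of_generateFrom_isSetRing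
      (μ := ν) (isSetRing_CC k) hcov (generate_CC k) hC
      (ENNReal.ofReal_pos.2 (show (0 : ℝ) < δ / 5 by positivity))
    obtain ⟨D', ⟨b, hD'⟩, hD1⟩ := exists_measure_symmDiff_lt_of_generateFrom_isSetRing
      (μ := ν) (isSetRing_CC k) hcov (generate_CC k) hD
      (ENNReal.ofReal_pos.2 (show (0 : ℝ) < δ / 5 by positivity))
    have hC2 : ν.real (C' ∆ C) ≤ δ / 5 := by
      rw [measureReal_def]
      exact ENNReal.toReal_le_of_le_ofReal (by positivity) hC1.le
    have hD2 : ν.real (D' ∆ D) ≤ δ / 5 := by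
      rw [measureReal_def]
      exact ENNReal.toReal_le_of_le_ofReal (by positivity) hD1.le
    have h1 := hcyl C' D' (max a b) (hC'.mono (le_max_left _ _)) (hD'.mono (le_max_right _ _))
    rw [Metric.tendsto_atTop] at h1
    obtain ⟨N, hN⟩ := h1 (δ / 5) (by positivity)
    refine ⟨N, fun j hj => ?_⟩
    have h2 := hN j hj
    rw [Real.dist_eq] at h2 ⊢
    have hC3 : |ν.real C' - ν.real C| ≤ δ / 5 :=
      (abs_measureReal_sub_le_measureReal_symmDiff hC'.measurableSet.nullMeasurableSet
        hC.nullMeasurableSet).trans hC2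
    have hD3 : |ν.real D' - ν.real D| ≤ δ / 5 :=
      (abs_measureReal_sub_le_measureReal_symmDiff hD'.measurableSet.nullMeasurableSet
        hD.nullMeasurableSet).trans hD2
    have hmS := measurable_it S (j : ℤ)
    have h4 : |ν.real (C' ∩ it S j ⁻¹' D') - ν.real (C ∩ it S j ⁻¹' D)| ≤ δ / 5 + δ / 5 := by
      refine (abs_measureReal_sub_le_measureReal_symmDiff
        (hC'.measurableSet.inter (hmS hD'.measurableSet)).nullMeasurableSet
        (hC.inter (hmS hD)).nullMeasurableSet).trans ?_
      have hsub : (C' ∩ it S j ⁻¹' D') ∆ (C ∩ it S j ⁻¹' D) ⊆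
          (C' ∆ C) ∪ it S j ⁻¹' (D' ∆ D) := by
        intro x hx
        simp only [Set.mem_symmDiff, Set.mem_inter_iff, Set.mem_preimage, Set.mem_union] at hx ⊢
        tauto
      refine (measureReal_mono hsub).trans ((measureReal_union_le _ _).trans ?_)
      refine add_le_add hC2 ?_
      rw [measureReal_def, (mp_it S hSν j).measure_preimage
        (hD'.measurableSet.symmDiff hD).nullMeasurableSet, ← measureReal_def]
      exact hD2
    have hC0 : 0 ≤ ν.real C := measureReal_nonneg
    have hC01 : ν.real C ≤ 1 := measureReal_le_one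
    have hD0 : 0 ≤ ν.real D' := measureReal_nonneg
    have hD01 : ν.real D' ≤ 1 := measureReal_le_one
    have h5 : |ν.real C' * ν.real D' - ν.real C * ν.real D| ≤ δ / 5 + δ / 5 := by
      have : ν.real C' * ν.real D' - ν.real C * ν.real D =
          (ν.real C' - ν.real C) * ν.real D' + ν.real C * (ν.real D' - ν.real D) := by ring
      rw [this]
      refine (abs_add_le _ _).trans (add_le_add ?_ ?_)
      · rw [abs_mul, abs_of_nonneg hD0]
        nlinarith [abs_nonneg (ν.real C' - ν.real C)]
      · rw [abs_mul, abs_of_nonneg hC0]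
        nlinarith [abs_nonneg (ν.real D' - ν.real D)]
    rw [abs_lt] at h2 ⊢
    rw [abs_le] at h4 h5
    constructor <;> linarith [h2.1, h2.2, h4.1, h4.2, h5.1, h5.2]
  -- the literal mixing condition
  have hlit : ∀ C D : Set (XX k), MeasurableSet C → MeasurableSet D →
      Tendsto (fun n : ℤ => ν.real (C ∩ (S.toEquiv ^ n : Equiv.Perm (XX k)) ⁻¹' D)) cofinite
        (𝓝 (ν.real C * ν.real D)) := by
    intro C D hC hD
    rw [Int.cofinite_eq, Filter.tendsto_sup]
    constructor
    · have h1 := hall D C hD hC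
      have h2 : Tendsto (fun n : ℤ => (-n).toNat) atBot atTop := by
        refine tendsto_atTop.2 fun b => ?_
        filter_upwards [eventually_le_atBot (-(b : ℤ))] with n hn
        omega
      have h3 := h1.comp h2
      rw [mul_comm] at h3
      refine h3.congr' ?_
      filter_upwards [eventually_le_atBot (0 : ℤ)] with n hn
      have e : (((-n).toNat : ℕ) : ℤ) = -n := by omega
      simp only [Function.comp_apply]
      rw [e]
      change _ = ν.real (C ∩ it S n ⁻¹' D)
      have e2 : C ∩ it S n ⁻¹' D = it S n ⁻¹' (D ∩ it S (-n) ⁻¹' C) := by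
        ext x
        simp only [Set.mem_inter_iff, Set.mem_preimage, it_neg_apply]
        tauto
      rw [e2, measureReal_def, measureReal_def, (mp_it S hSν n).measure_preimage
        (hD.inter (measurable_it S _ hC)).nullMeasurableSet]
    · have h1 := hall C D hC hD
      have h2 : Tendsto (fun n : ℤ => n.toNat) atTop atTop := by
        refine tendsto_atTop.2 fun b => ?_
        filter_upwards [eventually_ge_atTop (b : ℤ)] with n hn
        omega
      have h3 := h1.comp h2
      refine h3.congr' ?_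
      filter_upwards [eventually_ge_atTop (0 : ℤ)] with n hn
      have e : ((n.toNat : ℕ) : ℤ) = n := by omega
      simp only [Function.comp_apply]
      rw [e]
      rfl
  have hk := Q (XX k) ν S hSν hlit k
  obtain ⟨N, hN⟩ := hk (fun i => cyl k i) (fun i => measurableSet_cyl k i) ε hε
  refine ⟨N.toNat, fun t ht => ?_⟩
  have h1 := hN (fun i => (t i : ℤ)) (fun i j hij => by
    have := ht i j hij
    have h2 : N ≤ (N.toNat : ℤ) := Int.self_le_toNat N
    have h3 : ((t i + N.toNat : ℕ) : ℤ) ≤ t j := by exact_mod_cast this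
    push_cast at h3
    linarith)
  have hdep : ∀ i, Dep 0 (cyl k i) := by
    intro i x y hxy
    have := hxy 0 (by simp)
    simp only [cyl, Set.mem_setOf_eq, this]
  have hpre : ∀ i, code T A 0 ⁻¹' (cyl k i) = A i := by
    intro i
    ext ω
    simp only [code, cyl, Set.mem_preimage, Set.mem_setOf_eq, Nat.cast_zero, add_zero,
      Int.toNat_zero, Function.iterate_zero, id_eq, decide_eq_true_eq]
  have e1 : ∀ i, ν.real (cyl k i) = μ.real (A i) := fun i => by
    rw [hext 0 _ (hdep i) 0 le_rfl, hpre]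
  obtain ⟨b, hb⟩ : ∃ b : ℕ, ∀ i, t i ≤ b := by
    obtain ⟨b, h⟩ := (Set.finite_range t).bddAbove
    exact ⟨b, fun i => h ⟨i, rfl⟩⟩
  have hdepI : Dep b (⋂ i, it S (t i) ⁻¹' cyl k i) := by
    intro x y hxy
    rw [Set.mem_iInter, Set.mem_iInter]
    refine forall_congr' fun i => ?_
    exact (((hdep i).shift (t i)).mono (by rw [zero_add]; exact hb i)) x y hxy
  have e2 : ν.real (⋂ i, (S.toEquiv ^ ((t i : ℕ) : ℤ) : Equiv.Perm (XX k)) ⁻¹' cyl k i) =
      μ.real (⋂ i, T^[t i] ⁻¹' A i) := by
    change ν.real (⋂ i, it S (t i) ⁻¹' cyl k i) = _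
    rw [hext b _ hdepI b le_rfl, Set.preimage_iInter]
    have : ∀ i, code T A b ⁻¹' (it S (t i) ⁻¹' cyl k i) = T^[b] ⁻¹' (T^[t i] ⁻¹' A i) := fun i => by
      rw [code_shift_preimage T A (hdep i) (Nat.zero_le b), hpre, Nat.sub_zero]
    simp only [this]
    rw [← Set.preimage_iInter, measureReal_def, (hit b).measure_preimage, ← measureReal_def]
    exact (MeasurableSet.iInter fun i => (hit _).measurable (hA i)).nullMeasurableSet
  simp only [e1] at h1
  rw [e2] at h1
  exact h1

end main

end Vale.Agent.P102.H696
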