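import Vale.Agent.P102.Defs

/-!
# P102: mixing and multiple mixing for transformations, semiflows and flows
-/

namespace Vale.Agent.P102.H696

open MeasureTheory Filter Topology

variable {Ω : Type*} [MeasurableSpace Ω]

/-- The family of maps `ψ g` (`g` in `ℕ`, `ℝ≥0` or `ℝ`) is mixing: `μ (A ∩ (ψ g)⁻¹ B)` tends to
`μ A * μ B` as `g → +∞`, for all measurable `A` and `B`. -/
def MixingFamily {G : Type*} [Preorder G] (μ : Measure Ω) (ψ : G → Ω → Ω) : Prop :=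
  ∀ A B : Set Ω, MeasurableSet A → MeasurableSet B →
    Tendsto (fun g : G => μ.real (A ∩ ψ g ⁻¹' B)) atTop (𝓝 (μ.real A * μ.real B))

/-- The family of maps `ψ g` (`g` in `ℤ`, `ℕ`, `ℝ≥0` or `ℝ`) is mixing of all orders: for all `k`,
all measurable `A₁, …, A_k` and all `ε > 0` there is `N` such that
`|μ (⋂ i, (ψ (t i))⁻¹ A_i) - ∏ i, μ (A_i)| < ε` for all `t` with `t i + N ≤ t j` for `i < j`. -/
def AllOrders {G : Type*} [LE G] [Add G] (μ : Measure Ω) (ψ : G → Ω → Ω) : Prop :=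
  ∀ (k : ℕ) (A : Fin k → Set Ω), (∀ i, MeasurableSet (A i)) → ∀ ε : ℝ, 0 < ε →
    ∃ N : G, ∀ t : Fin k → G, (∀ i j, i < j → t i + N ≤ t j) →
      |μ.real (⋂ i, ψ (t i) ⁻¹' A i) - ∏ i, μ.real (A i)| < ε

/-- The same for bounded measurable functions: `∫ ∏ i, f_i (ψ (t i) x)` is within `ε` of
`∏ i, ∫ f_i` for all `t` with `t i + N ≤ t j` for `i < j`. -/
def Decorrelates {G : Type*} [LE G] [Add G] (μ : Measure Ω) (ψ : G → Ω → Ω) : Prop :=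
  ∀ (k : ℕ) (f : Fin k → Ω → ℝ), (∀ i, Measurable (f i)) → (∀ i, ∃ C : ℝ, ∀ x, |f i x| ≤ C) →
    ∀ ε : ℝ, 0 < ε → ∃ N : G, ∀ t : Fin k → G, (∀ i j, i < j → t i + N ≤ t j) →
      |∫ x, ∏ i, f i (ψ (t i) x) ∂μ - ∏ i, ∫ x, f i x ∂μ| < ε

end Vale.Agent.P102.H696
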