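import Vale.Agent.P102.H696.FDefs
import Mathlib.MeasureTheory.Measure.ContinuousPreimage
import Mathlib.MeasureTheory.Measure.Prod

/-!
# P102: multiple mixing for measurable semiflows, from multiple mixing for endomorphisms
-/

set_option linter.all false

namespace Vale.Agent.P102.H696

open MeasureTheory Filter Topology Set
open scoped NNReal ENNReal symmDiff

/-! ### intersections and symmetric differences -/

theorem iInter_symmDiff_subset {α ι : Type*} (B C : ι → Set α) :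
    (⋂ i, B i) ∆ (⋂ i, C i) ⊆ ⋃ i, B i ∆ C i := by
  intro x hx
  rw [Set.mem_symmDiff] at hx
  rw [Set.mem_iUnion]
  rcases hx with ⟨h1, h2⟩ | ⟨h1, h2⟩
  · rw [Set.mem_iInter] at h1 h2
    push Not at h2
    obtain ⟨i, hi⟩ := h2
    exact ⟨i, Or.inl ⟨h1 i, hi⟩⟩
  · rw [Set.mem_iInter] at h1 h2
    push Not at h2
    obtain ⟨i, hi⟩ := h2
    exact ⟨i, Or.inr ⟨h1 i, hi⟩⟩

theorem abs_iInter_sub_le {α : Type*} [MeasurableSpace α] (μ : Measure α) [IsProbabilityMeasure μ]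
    {k : ℕ} (B C : Fin k → Set α) (hB : ∀ i, MeasurableSet (B i)) (hC : ∀ i, MeasurableSet (C i)) :
    |μ.real (⋂ i, B i) - μ.real (⋂ i, C i)| ≤ ∑ i, μ.real (B i ∆ C i) := by
  refine (abs_measureReal_sub_le_measureReal_symmDiff
    (MeasurableSet.iInter hB).nullMeasurableSet (MeasurableSet.iInter hC).nullMeasurableSet).trans ?_
  refine (measureReal_mono (iInter_symmDiff_subset B C)).trans ?_
  exact measureReal_iUnion_fintype_le _

/-! ### continuity of a measurable semiflow -/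

section semiflow

variable {Ω : Type*} [MeasurableSpace Ω] {μ : Measure Ω} [IsProbabilityMeasure μ]

theorem tendsto_translate {S : Set ℝ} (hS : MeasurableSet S) (hf : volume S ≠ ∞) :
    Tendsto (fun h : ℝ≥0 => volume (((fun s : ℝ => s + (h : ℝ)) ⁻¹' S) ∆ S)) (𝓝 0) (𝓝 0) := by
  have h1 : Continuous fun p : ℝ≥0 × ℝ => p.2 + (p.1 : ℝ) := by fun_prop
  have h2 : Continuous fun h : ℝ≥0 => (⟨fun s : ℝ => s + (h : ℝ), by fun_prop⟩ : C(ℝ, ℝ)) :=
    ContinuousMap.continuous_of_continuous_uncurry _ h1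
  have h3 : (⟨fun s : ℝ => s + ((0 : ℝ≥0) : ℝ), by fun_prop⟩ : C(ℝ, ℝ)) = ContinuousMap.id ℝ := by
    ext s
    simp
  have h4 := tendsto_measure_symmDiff_preimage_nhds_zero (μ := (volume : Measure ℝ))
    (ν := (volume : Measure ℝ)) (l := 𝓝 (0 : ℝ≥0))
    (f := fun h : ℝ≥0 => (⟨fun s : ℝ => s + (h : ℝ), by fun_prop⟩ : C(ℝ, ℝ)))
    (g := ContinuousMap.id ℝ) (s := S) (by rw [← h3]; exact h2.tendsto 0)
    (Eventually.of_forall fun h => measurePreserving_add_right volume (h : ℝ))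
    (MeasurePreserving.id _) hS.nullMeasurableSet hf
  exact h4

theorem cont_semiflow {φ : ℝ≥0 → Ω → Ω} (hm : Measurable (Function.uncurry φ))
    (hadd : ∀ s t x, φ (s + t) x = φ s (φ t x)) (hmp : ∀ t, MeasurePreserving (φ t) μ μ)
    {A : Set Ω} (hA : MeasurableSet A) :
    Tendsto (fun h : ℝ≥0 => μ ((φ h ⁻¹' A) ∆ A)) (𝓝 0) (𝓝 0) := by
  have hφ : ∀ t, Measurable (φ t) := fun t => (hmp t).measurable
  set D : ℝ≥0 → Set (ℝ × Ω) := fun h =>
    ((fun p : ℝ × Ω => φ (h + p.1.toNNReal) p.2) ⁻¹' A) ∆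
      ((fun p : ℝ × Ω => φ p.1.toNNReal p.2) ⁻¹' A) with hD
  have hD1 : ∀ h, MeasurableSet (D h) := by
    intro h
    refine MeasurableSet.symmDiff ?_ ?_
    · exact (hm.comp (Measurable.prodMk (by fun_prop) measurable_snd)) hA
    · exact (hm.comp (Measurable.prodMk (by fun_prop) measurable_snd)) hA
  set ν : Measure ℝ := volume.restrict (Icc 0 1) with hν
  have hν1 : ν univ = 1 := by simp [hν]
  haveI : IsProbabilityMeasure ν := ⟨hν1⟩
  have key : ∀ h : ℝ≥0, μ ((φ h ⁻¹' A) ∆ A) = ∫⁻ x, ν ((fun s => (s, x)) ⁻¹' D h) ∂μ := by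
    intro h
    rw [← Measure.prod_apply_symm (hD1 h), Measure.prod_apply (hD1 h)]
    have : ∀ s : ℝ, μ (Prod.mk s ⁻¹' D h) = μ ((φ h ⁻¹' A) ∆ A) := by
      intro s
      have e : Prod.mk s ⁻¹' D h = φ s.toNNReal ⁻¹' ((φ h ⁻¹' A) ∆ A) := by
        ext x
        simp only [hD, Set.mem_preimage, Set.mem_symmDiff, hadd]
      rw [e, (hmp _).measure_preimage ((hφ h hA).symmDiff hA).nullMeasurableSet]
    simp only [this, lintegral_const, hν1, mul_one]
  have h0 : Tendsto (fun h : ℝ≥0 => ∫⁻ x, ν ((fun s => (s, x)) ⁻¹' D h) ∂μ) (𝓝 0)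
      (𝓝 (∫⁻ _, 0 ∂μ)) := by
    refine tendsto_lintegral_filter_of_dominated_convergence (fun _ => 1) ?_ ?_ (by simp) ?_
    · exact Eventually.of_forall fun h => measurable_measure_prodMk_right (hD1 h)
    · exact Eventually.of_forall fun h => Eventually.of_forall fun x => prob_le_one
    · refine Eventually.of_forall fun x => ?_
      set S : Set ℝ := {s | s ∈ Icc (0 : ℝ) 3 ∧ φ s.toNNReal x ∈ A} with hS
      have hSm : MeasurableSet S := by
        refine measurableSet_Icc.inter ?_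
        have : Measurable fun s : ℝ => φ s.toNNReal x :=
          hm.comp (Measurable.prodMk (by fun_prop) measurable_const)
        exact this hA
      have hSf : volume S ≠ ∞ := by
        refine ne_of_lt (lt_of_le_of_lt (measure_mono (t := Icc (0 : ℝ) 3) fun s hs => hs.1) ?_)
        simp
      refine tendsto_of_tendsto_of_tendsto_of_le_of_le' tendsto_const_nhds
        (tendsto_translate hSm hSf) (Eventually.of_forall fun _ => bot_le) ?_
      have h1 : ∀ᶠ h : ℝ≥0 in 𝓝 0, h ≤ 1 := Iic_mem_nhds (by norm_num)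
      filter_upwards [h1] with h hh
      rw [hν, Measure.restrict_apply' measurableSet_Icc]
      refine measure_mono ?_
      rintro s ⟨hs, hs0, hs1⟩
      have hh' : (h : ℝ) ≤ 1 := by exact_mod_cast hh
      have hh0 : (0 : ℝ) ≤ h := h.2
      have e : (s + (h : ℝ)).toNNReal = h + s.toNNReal := by
        rw [Real.toNNReal_add hs0 hh0, Real.toNNReal_coe, add_comm]
      have m1 : s ∈ ((fun s : ℝ => s + (h : ℝ)) ⁻¹' S) ↔ φ (h + s.toNNReal) x ∈ A := by
        simp only [hS, Set.mem_preimage, Set.mem_setOf_eq, Set.mem_Icc, e]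
        constructor
        · exact fun h => h.2
        · exact fun h => ⟨⟨by linarith, by linarith⟩, h⟩
      have m2 : s ∈ S ↔ φ s.toNNReal x ∈ A := by
        simp only [hS, Set.mem_setOf_eq, Set.mem_Icc]
        constructor
        · exact fun h => h.2
        · exact fun h => ⟨⟨by linarith, by linarith⟩, h⟩
      simp only [hD, Set.mem_preimage, Set.mem_symmDiff] at hs
      rw [Set.mem_symmDiff, m1, m2]
      exact hs
  simp only [lintegral_zero] at h0
  exact (tendsto_congr key).2 h0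

theorem semiflow_nat {φ : ℝ≥0 → Ω → Ω} (h0 : ∀ x, φ 0 x = x)
    (hadd : ∀ s t x, φ (s + t) x = φ s (φ t x)) (n : ℕ) (x : Ω) : (φ 1)^[n] x = φ n x := by
  induction n with
  | zero => simp [h0]
  | succ n ih => rw [Function.iterate_succ_apply', ih, ← hadd, Nat.cast_succ, add_comm]

theorem semiflow_mixing {φ : ℝ≥0 → Ω → Ω} (hm : Measurable (Function.uncurry φ))
    (h0 : ∀ x, φ 0 x = x) (hadd : ∀ s t x, φ (s + t) x = φ s (φ t x))
    (hmp : ∀ t, MeasurePreserving (φ t) μ μ) (H : AllOrders μ fun n : ℕ => (φ 1)^[n]) :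
    AllOrders μ φ := by
  intro k A hA ε hε
  have hφ : ∀ t, Measurable (φ t) := fun t => (hmp t).measurable
  -- the modulus of continuity
  have h1 : ∀ i, ∀ᶠ h : ℝ≥0 in 𝓝 0, μ ((φ h ⁻¹' A i) ∆ A i) < ENNReal.ofReal (ε / (2 * (k + 1))) := by
    intro i
    exact (cont_semiflow hm hadd hmp (hA i)).eventually_lt_const
      (ENNReal.ofReal_pos.2 (by positivity))
  have h2 : ∀ᶠ h : ℝ≥0 in 𝓝 0, ∀ i, μ ((φ h ⁻¹' A i) ∆ A i) < ENNReal.ofReal (ε / (2 * (k + 1))) :=
    eventually_all.2 h1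
  obtain ⟨δ, hδ, hδ2⟩ : ∃ δ : ℝ≥0, 0 < δ ∧ ∀ h : ℝ≥0, h < δ → ∀ i,
      μ ((φ h ⁻¹' A i) ∆ A i) < ENNReal.ofReal (ε / (2 * (k + 1))) := by
    obtain ⟨δ, hδ, hδ2⟩ := NNReal.nhds_zero_basis.eventually_iff.1 h2
    exact ⟨δ, hδ, fun h hh => hδ2 hh⟩
  obtain ⟨M, hM0, hM⟩ : ∃ M : ℕ, 0 < M ∧ (1 : ℝ≥0) / M < δ := by
    obtain ⟨M, hM⟩ := exists_nat_one_div_lt (K := ℝ≥0) hδ
    exact ⟨M + 1, Nat.succ_pos _, by exact_mod_cast hM⟩
  -- finitely many shifted tuples
  have h3 : ∀ J : Fin k → Fin M, ∃ N : ℕ, ∀ t : Fin k → ℕ, (∀ i j, i < j → t i + N ≤ t j) →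
      |μ.real (⋂ i, (φ 1)^[t i] ⁻¹' (φ ((J i : ℕ) / M) ⁻¹' A i)) - ∏ i, μ.real (A i)| < ε / 2 := by
    intro J
    obtain ⟨N, hN⟩ := H k (fun i => φ ((J i : ℕ) / M) ⁻¹' A i) (fun i => hφ _ (hA i)) (ε / 2)
      (by positivity)
    refine ⟨N, fun t ht => ?_⟩
    have := hN t ht
    have e : ∀ i, μ.real (φ ((J i : ℕ) / M) ⁻¹' A i) = μ.real (A i) := fun i => by
      rw [measureReal_def, (hmp _).measure_preimage (hA i).nullMeasurableSet, measureReal_def]
    simpa only [e] using this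
  choose N hN using h3
  obtain ⟨N0, hN0⟩ : ∃ N0 : ℕ, ∀ J, N J ≤ N0 := by
    obtain ⟨N0, h⟩ := (Set.finite_range N).bddAbove
    exact ⟨N0, fun J => h ⟨J, rfl⟩⟩
  refine ⟨N0 + 1, fun t ht => ?_⟩
  -- integer and fractional parts
  set n : Fin k → ℕ := fun i => ⌊t i⌋₊ with hn
  set s : Fin k → ℝ≥0 := fun i => t i - n i with hs
  have hns : ∀ i, t i = s i + n i := fun i => by
    rw [hs]
    exact (tsub_add_cancel_of_le (Nat.floor_le bot_le)).symm
  have hs1 : ∀ i, s i < 1 := fun i => by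
    have h := Nat.lt_floor_add_one (t i)
    rw [hs]
    exact (tsub_lt_iff_left (Nat.floor_le bot_le)).2 h
  have hj : ∀ i, ⌊s i * M⌋₊ < M := fun i => by
    rw [Nat.floor_lt bot_le]
    have : (0 : ℝ≥0) < M := by exact_mod_cast hM0
    calc s i * M < 1 * M := mul_lt_mul_of_pos_right (hs1 i) this
      _ = M := one_mul _
  set J : Fin k → Fin M := fun i => ⟨⌊s i * M⌋₊, hj i⟩ with hJ
  have hM' : (0 : ℝ≥0) < M := by exact_mod_cast hM0
  have hJ1 : ∀ i, ((J i : ℕ) : ℝ≥0) / M ≤ s i := fun i => by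
    rw [div_le_iff₀ hM']
    exact Nat.floor_le bot_le
  have hJ2 : ∀ i, s i - ((J i : ℕ) : ℝ≥0) / M < δ := fun i => by
    refine lt_of_le_of_lt ?_ hM
    rw [tsub_le_iff_left, ← add_div, le_div_iff₀ hM']
    exact (Nat.lt_floor_add_one _).le
  have hgap : ∀ i j, i < j → n i + N J ≤ n j := by
    intro i j hij
    have h := ht i j hij
    have h1 : ((n i + N J : ℕ) : ℝ≥0) ≤ t j := by
      calc ((n i + N J : ℕ) : ℝ≥0) = n i + N J := by push_cast; rfl
        _ ≤ t i + N0 := add_le_add (Nat.floor_le bot_le) (by exact_mod_cast hN0 J)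
        _ ≤ t i + (N0 + 1) := by gcongr; exact le_self_add
        _ ≤ t j := h
    exact Nat.le_floor h1
  have h4 := hN J n hgap
  -- comparison
  have hfac : ∀ i, φ (t i) ⁻¹' A i = (φ 1)^[n i] ⁻¹' (φ (s i) ⁻¹' A i) := fun i => by
    ext x
    rw [Set.mem_preimage, Set.mem_preimage, Set.mem_preimage, semiflow_nat h0 hadd, ← hadd, ← hns]
  have hit : ∀ m : ℕ, MeasurePreserving ((φ 1)^[m]) μ μ := fun m => (hmp 1).iterate m
  have h5 : |μ.real (⋂ i, φ (t i) ⁻¹' A i) -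
      μ.real (⋂ i, (φ 1)^[n i] ⁻¹' (φ ((J i : ℕ) / M) ⁻¹' A i))| ≤ ε / 2 := by
    refine (abs_iInter_sub_le μ _ _ (fun i => hφ _ (hA i))
      (fun i => (hit _).measurable (hφ _ (hA i)))).trans ?_
    have h6 : ∀ i, μ.real ((φ (t i) ⁻¹' A i) ∆ ((φ 1)^[n i] ⁻¹' (φ ((J i : ℕ) / M) ⁻¹' A i))) ≤
        ε / (2 * (k + 1)) := by
      intro i
      have e1 : (φ (t i) ⁻¹' A i) ∆ ((φ 1)^[n i] ⁻¹' (φ ((J i : ℕ) / M) ⁻¹' A i)) =
          (φ 1)^[n i] ⁻¹' (φ ((J i : ℕ) / M) ⁻¹'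
            ((φ (s i - ((J i : ℕ) : ℝ≥0) / M) ⁻¹' A i) ∆ A i)) := by
        rw [hfac]
        ext x
        have : φ (s i) ((φ 1)^[n i] x) = φ (s i - ((J i : ℕ) : ℝ≥0) / M)
            (φ (((J i : ℕ) : ℝ≥0) / M) ((φ 1)^[n i] x)) := by
          rw [← hadd, tsub_add_cancel_of_le (hJ1 i)]
        simp only [Set.mem_preimage, Set.mem_symmDiff, this]
      rw [e1, measureReal_def, (hit _).measure_preimage, (hmp _).measure_preimage]
      · exact ENNReal.toReal_le_of_le_ofReal (by positivity) (hδ2 _ (hJ2 i) i).le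
      · exact ((hφ _ (hA i)).symmDiff (hA i)).nullMeasurableSet
      · exact (hφ _ ((hφ _ (hA i)).symmDiff (hA i))).nullMeasurableSet
    calc ∑ i, μ.real ((φ (t i) ⁻¹' A i) ∆ ((φ 1)^[n i] ⁻¹' (φ ((J i : ℕ) / M) ⁻¹' A i)))
        ≤ ∑ _i : Fin k, ε / (2 * (k + 1)) := Finset.sum_le_sum fun i _ => h6 i
      _ = k * (ε / (2 * (k + 1))) := by simp
      _ ≤ ε / 2 := by
        rw [mul_div_assoc', div_le_div_iff₀ (by positivity) (by positivity)]
        nlinarith
  calc |μ.real (⋂ i, φ (t i) ⁻¹' A i) - ∏ i, μ.real (A i)|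
      ≤ |μ.real (⋂ i, φ (t i) ⁻¹' A i) -
          μ.real (⋂ i, (φ 1)^[n i] ⁻¹' (φ ((J i : ℕ) / M) ⁻¹' A i))| +
        |μ.real (⋂ i, (φ 1)^[n i] ⁻¹' (φ ((J i : ℕ) / M) ⁻¹' A i)) - ∏ i, μ.real (A i)| :=
        abs_sub_le _ _ _
    _ < ε := by linarith

/-- flows from semiflows, by invariance -/
theorem flow_mixing {φ : ℝ → Ω → Ω} (hadd : ∀ s t x, φ (s + t) x = φ s (φ t x))
    (hmp : ∀ t, MeasurePreserving (φ t) μ μ) (H : AllOrders μ fun s : ℝ≥0 => φ s) :
    AllOrders μ φ := by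
  intro k A hA ε hε
  obtain ⟨N, hN⟩ := H k A hA ε hε
  refine ⟨N, fun t ht => ?_⟩
  obtain ⟨a, ha⟩ : ∃ a : ℝ, ∀ i, a ≤ t i := by
    obtain ⟨a, h⟩ := (Set.finite_range t).bddBelow
    exact ⟨a, fun i => h ⟨i, rfl⟩⟩
  set s : Fin k → ℝ≥0 := fun i => ⟨t i - a, sub_nonneg.2 (ha i)⟩ with hs
  have h1 := hN s (fun i j hij => by
    have := ht i j hij
    rw [← NNReal.coe_le_coe, NNReal.coe_add]
    change t i - a + N ≤ t j - a
    linarith)
  have e : (⋂ i, φ (t i) ⁻¹' A i) = φ a ⁻¹' (⋂ i, φ (s i) ⁻¹' A i) := by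
    ext x
    simp only [Set.mem_iInter, Set.mem_preimage]
    refine forall_congr' fun i => ?_
    rw [← hadd]
    change _ ↔ φ (t i - a + a) x ∈ A i
    rw [sub_add_cancel]
  have e2 : μ.real (⋂ i, φ (t i) ⁻¹' A i) = μ.real (⋂ i, φ (s i) ⁻¹' A i) := by
    rw [e, measureReal_def, (hmp a).measure_preimage, measureReal_def]
    exact (MeasurableSet.iInter fun i => (hmp _).measurable (hA i)).nullMeasurableSet
  rw [e2]
  exact h1

end semiflow

/-! ### bounded functions -/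

section fun_form

theorem abs_prod_sub_prod_le {ι : Type*} (s : Finset ι) (a b : ι → ℝ) {B : ℝ} (hB : 1 ≤ B)
    (ha : ∀ i ∈ s, |a i| ≤ B) (hb : ∀ i ∈ s, |b i| ≤ B) :
    |∏ i ∈ s, a i - ∏ i ∈ s, b i| ≤ B ^ s.card * ∑ i ∈ s, |a i - b i| := by
  classical
  induction s using Finset.induction_on with
  | empty => simp
  | insert i s hi ih =>
    have ha' : ∀ j ∈ s, |a j| ≤ B := fun j hj => ha j (Finset.mem_insert_of_mem hj)
    have hb' : ∀ j ∈ s, |b j| ≤ B := fun j hj => hb j (Finset.mem_insert_of_mem hj)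
    have h1 := ih ha' hb'
    have h2 : |∏ j ∈ s, b j| ≤ B ^ s.card := by
      rw [Finset.abs_prod]
      exact (Finset.prod_le_prod (fun _ _ => abs_nonneg _) hb').trans (by simp)
    have h3 := ha i (Finset.mem_insert_self i s)
    rw [Finset.prod_insert hi, Finset.prod_insert hi, Finset.card_insert_of_notMem hi,
      Finset.sum_insert hi]
    have e : a i * ∏ j ∈ s, a j - b i * ∏ j ∈ s, b j =
        a i * (∏ j ∈ s, a j - ∏ j ∈ s, b j) + (a i - b i) * ∏ j ∈ s, b j := by ring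
    rw [e]
    have hS : 0 ≤ ∑ j ∈ s, |a j - b j| := Finset.sum_nonneg fun _ _ => abs_nonneg _
    have hp : 0 ≤ B ^ s.card := by positivity
    calc |a i * (∏ j ∈ s, a j - ∏ j ∈ s, b j) + (a i - b i) * ∏ j ∈ s, b j|
        ≤ |a i| * |∏ j ∈ s, a j - ∏ j ∈ s, b j| + |a i - b i| * |∏ j ∈ s, b j| := by
          refine (abs_add_le _ _).trans ?_
          rw [abs_mul, abs_mul]
      _ ≤ B * (B ^ s.card * ∑ j ∈ s, |a j - b j|) + |a i - b i| * B ^ s.card := by
          gcongr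
      _ ≤ B ^ (s.card + 1) * (|a i - b i| + ∑ j ∈ s, |a j - b j|) := by
          rw [pow_succ]
          nlinarith [mul_nonneg (mul_nonneg hp (abs_nonneg (a i - b i))) (sub_nonneg.2 hB)]

variable {Ω : Type*} [MeasurableSpace Ω] {μ : Measure Ω} [IsProbabilityMeasure μ]

theorem abs_integral_le {u : Ω → ℝ} {C : ℝ} (h : ∀ x, |u x| ≤ C) : |∫ x, u x ∂μ| ≤ C := by
  have h1 : ‖∫ x, u x ∂μ‖ ≤ C * μ.real univ :=
    norm_integral_le_of_norm_le_const (Eventually.of_forall fun x => by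
      rw [Real.norm_eq_abs]
      exact h x)
  rw [Real.norm_eq_abs] at h1
  simpa using h1

theorem fun_mixing {G : Type*} [LinearOrder G] [AddZeroClass G] [AddLeftMono G] {ψ : G → Ω → Ω}
    (hψ : ∀ g, Measurable (ψ g)) (H : AllOrders μ ψ) : Decorrelates μ ψ := by
  classical
  intro k f hf hb ε hε
  obtain ⟨B, hB1, hB⟩ : ∃ B : ℝ, 2 ≤ B ∧ ∀ i x, |f i x| ≤ B - 1 := by
    choose C hC using hb
    refine ⟨2 + ∑ i, |C i|, by
      have : 0 ≤ ∑ i, |C i| := Finset.sum_nonneg fun _ _ => abs_nonneg _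
      linarith, fun i x => ?_⟩
    have h1 : |C i| ≤ ∑ i, |C i| :=
      Finset.single_le_sum (f := fun i => |C i|) (fun _ _ => abs_nonneg _) (Finset.mem_univ i)
    have := hC i x
    linarith [le_abs_self (C i)]
  have hBp : 0 < B ^ k := by positivity
  -- the mesh
  obtain ⟨δ, hδ, hδ1, hδ2⟩ : ∃ δ : ℝ, 0 < δ ∧ δ ≤ 1 ∧ B ^ k * (k * δ) ≤ ε / 4 := by
    refine ⟨min 1 (ε / (4 * (B ^ k * (k + 1)))), by positivity, min_le_left _ _, ?_⟩
    calc B ^ k * (k * min 1 (ε / (4 * (B ^ k * (k + 1)))))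
        ≤ B ^ k * ((k + 1) * (ε / (4 * (B ^ k * (k + 1))))) := by
          gcongr
          · linarith
          · exact min_le_right _ _
      _ = ε / 4 := by field_simp
  set E : Fin k → ℤ → Set Ω := fun i m => {x | ⌊f i x / δ⌋ = m} with hE
  have hEm : ∀ i m, MeasurableSet (E i m) := fun i m =>
    ((hf i).div_const δ).floor (measurableSet_singleton m)
  obtain ⟨K, hK⟩ : ∃ K : ℤ, ∀ i x, ⌊f i x / δ⌋ ∈ Finset.Icc (-K) K := by
    refine ⟨⌈B / δ⌉, fun i x => ?_⟩
    have h1 := abs_le.1 (hB i x)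
    rw [Finset.mem_Icc]
    constructor
    · rw [Int.le_floor, Int.cast_neg]
      have : -(B / δ) ≤ f i x / δ := by
        rw [← neg_div]
        exact div_le_div_of_nonneg_right (by linarith) hδ.le
      have h2 : (B / δ) ≤ (⌈B / δ⌉ : ℝ) := Int.le_ceil _
      linarith
    · refine Int.floor_le_iff.2 ?_
      have : f i x / δ ≤ B / δ := div_le_div_of_nonneg_right (by linarith) hδ.le
      have h2 : (B / δ) ≤ (⌈B / δ⌉ : ℝ) := Int.le_ceil _
      linarith
  set F : Finset ℤ := Finset.Icc (-K) K with hF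
  set g : Fin k → Ω → ℝ := fun i x => ∑ m ∈ F, (E i m).indicator (fun _ => δ * m) x with hg
  have hge : ∀ i x, g i x = δ * ⌊f i x / δ⌋ := by
    intro i x
    rw [hg]
    change ∑ m ∈ F, (E i m).indicator (fun _ => δ * (m : ℝ)) x = _
    rw [Finset.sum_eq_single ⌊f i x / δ⌋]
    · rw [Set.indicator_of_mem]
      exact rfl
    · intro m _ hm
      rw [Set.indicator_of_notMem]
      exact fun h => hm (Eq.symm h)
    · exact fun h => absurd (hK i x) h
  have hgf : ∀ i x, |f i x - g i x| ≤ δ := by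
    intro i x
    rw [hge]
    have h1 := Int.floor_le (f i x / δ)
    have h2 := Int.lt_floor_add_one (f i x / δ)
    have e : f i x = δ * (f i x / δ) := by field_simp
    rw [abs_le]
    constructor
    · nlinarith
    · nlinarith
  have hgB : ∀ i x, |g i x| ≤ B := by
    intro i x
    have h1 := hgf i x
    have h2 := hB i x
    have h3 : g i x = f i x - (f i x - g i x) := by ring
    rw [h3]
    exact (abs_sub _ _).trans (by linarith)
  have hgm : ∀ i, Measurable (g i) := fun i =>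
    Finset.measurable_sum _ fun m _ => measurable_const.indicator (hEm i m)
  -- the simple tuples
  set P := Fintype.piFinset (fun _ : Fin k => F) with hP
  set c : ℝ := ∑ J ∈ P, |∏ i, (δ * (J i : ℝ))| with hc
  have hc0 : 0 ≤ c := Finset.sum_nonneg fun _ _ => abs_nonneg _
  have h1 : ∀ J : Fin k → ℤ, ∃ N : G, ∀ t : Fin k → G, (∀ i j, i < j → t i + N ≤ t j) →
      |μ.real (⋂ i, ψ (t i) ⁻¹' E i (J i)) - ∏ i, μ.real (E i (J i))| < ε / (4 * (c + 1)) :=
    fun J => H k (fun i => E i (J i)) (fun i => hEm i _) _ (by positivity)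
  choose N hN using h1
  obtain ⟨N0, hN0⟩ : ∃ N0 : G, ∀ J ∈ P, N J ≤ N0 := by
    haveI : Nonempty G := ⟨0⟩
    obtain ⟨N0, h⟩ := (P.image N).bddAbove
    exact ⟨N0, fun J hJ => h (by
      rw [Finset.mem_coe]
      exact Finset.mem_image_of_mem N hJ)⟩
  refine ⟨N0, fun t ht => ?_⟩
  have h2 : ∀ J ∈ P, |μ.real (⋂ i, ψ (t i) ⁻¹' E i (J i)) - ∏ i, μ.real (E i (J i))| <
      ε / (4 * (c + 1)) := fun J hJ => hN J t fun i j hij =>
    (add_le_add_right (hN0 J hJ) (t i)).trans (ht i j hij)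
  -- the simple functions
  have e1 : ∫ x, ∏ i, g i (ψ (t i) x) ∂μ =
      ∑ J ∈ P, (∏ i, (δ * (J i : ℝ))) * μ.real (⋂ i, ψ (t i) ⁻¹' E i (J i)) := by
    have e : ∀ x, ∏ i, g i (ψ (t i) x) =
        ∑ J ∈ P, (⋂ i, ψ (t i) ⁻¹' E i (J i)).indicator (fun _ => ∏ i, (δ * (J i : ℝ))) x := by
      intro x
      rw [hg]
      change ∏ i, ∑ m ∈ F, (E i m).indicator (fun _ => δ * (m : ℝ)) (ψ (t i) x) = _
      rw [Finset.prod_univ_sum]
      refine Finset.sum_congr rfl fun J _ => ?_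
      by_cases hx : x ∈ ⋂ i, ψ (t i) ⁻¹' E i (J i)
      · rw [Set.indicator_of_mem hx]
        refine Finset.prod_congr rfl fun i _ => ?_
        rw [Set.indicator_of_mem]
        exact Set.mem_iInter.1 hx i
      · rw [Set.indicator_of_notMem hx]
        rw [Set.mem_iInter] at hx
        push Not at hx
        obtain ⟨i, hi⟩ := hx
        refine Finset.prod_eq_zero (Finset.mem_univ i) ?_
        rw [Set.indicator_of_notMem]
        exact hi
    simp only [e]
    have hm : ∀ J : Fin k → ℤ, MeasurableSet (⋂ i, ψ (t i) ⁻¹' E i (J i)) := fun J =>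
      MeasurableSet.iInter fun i => hψ _ (hEm i _)
    rw [integral_finset_sum _ fun J _ => (integrable_const _).indicator (hm J)]
    refine Finset.sum_congr rfl fun J _ => ?_
    rw [integral_indicator_const _ (hm J), smul_eq_mul, mul_comm]
  have e2 : ∏ i, ∫ x, g i x ∂μ =
      ∑ J ∈ P, (∏ i, (δ * (J i : ℝ))) * ∏ i, μ.real (E i (J i)) := by
    have e : ∀ i, ∫ x, g i x ∂μ = ∑ m ∈ F, δ * (m : ℝ) * μ.real (E i m) := by
      intro i
      rw [hg]
      change ∫ x, ∑ m ∈ F, (E i m).indicator (fun _ => δ * (m : ℝ)) x ∂μ = _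
      rw [integral_finset_sum _ fun m _ => (integrable_const _).indicator (hEm i m)]
      refine Finset.sum_congr rfl fun m _ => ?_
      rw [integral_indicator_const _ (hEm i m), smul_eq_mul, mul_comm]
    simp only [e]
    rw [Finset.prod_univ_sum]
    exact Finset.sum_congr rfl fun J _ => Finset.prod_mul_distrib
  have h3 : |∫ x, ∏ i, g i (ψ (t i) x) ∂μ - ∏ i, ∫ x, g i x ∂μ| ≤ ε / 4 := by
    rw [e1, e2, ← Finset.sum_sub_distrib]
    calc |∑ J ∈ P, ((∏ i, (δ * (J i : ℝ))) * μ.real (⋂ i, ψ (t i) ⁻¹' E i (J i)) -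
          (∏ i, (δ * (J i : ℝ))) * ∏ i, μ.real (E i (J i)))|
        ≤ ∑ J ∈ P, |∏ i, (δ * (J i : ℝ))| * (ε / (4 * (c + 1))) := by
          refine (Finset.abs_sum_le_sum_abs _ _).trans (Finset.sum_le_sum fun J hJ => ?_)
          rw [← mul_sub, abs_mul]
          exact mul_le_mul_of_nonneg_left (h2 J hJ).le (abs_nonneg _)
      _ = c * (ε / (4 * (c + 1))) := by rw [← Finset.sum_mul]
      _ ≤ ε / 4 := by
          rw [mul_div_assoc', div_le_div_iff₀ (by positivity) (by positivity)]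
          nlinarith
  -- comparison of `f` and `g`
  have hfB : ∀ i x, |f i x| ≤ B := fun i x => (hB i x).trans (by linarith)
  have h4 : ∀ y : Fin k → Ω, |∏ i, f i (y i) - ∏ i, g i (y i)| ≤ ε / 4 := by
    intro y
    refine (abs_prod_sub_prod_le Finset.univ (fun i => f i (y i)) (fun i => g i (y i))
      (by linarith : (1 : ℝ) ≤ B) (fun i _ => hfB i _) (fun i _ => hgB i _)).trans ?_
    refine le_trans ?_ hδ2
    rw [Finset.card_univ, Fintype.card_fin]
    refine mul_le_mul_of_nonneg_left ?_ hBp.le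
    refine (Finset.sum_le_sum fun i _ => hgf i (y i)).trans ?_
    simp
  have hint : ∀ u : Fin k → Ω → ℝ, (∀ i, Measurable (u i)) → (∀ i x, |u i x| ≤ B) →
      Integrable (fun x => ∏ i, u i (ψ (t i) x)) μ := by
    intro u hu hub
    refine Integrable.of_bound (Finset.measurable_prod _ fun i _ =>
      (hu i).comp (hψ _)).aestronglyMeasurable (B ^ k) (Eventually.of_forall fun x => ?_)
    rw [Real.norm_eq_abs, Finset.abs_prod]
    refine (Finset.prod_le_prod (fun _ _ => abs_nonneg _) fun i _ => hub i _).trans ?_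
    simp
  have h5 : |∫ x, ∏ i, f i (ψ (t i) x) ∂μ - ∫ x, ∏ i, g i (ψ (t i) x) ∂μ| ≤ ε / 4 := by
    rw [← integral_sub (hint f hf hfB) (hint g hgm hgB)]
    exact abs_integral_le fun x => h4 fun i => ψ (t i) x
  have hi1 : ∀ u : Ω → ℝ, Measurable u → (∀ x, |u x| ≤ B) → Integrable u μ := fun u hu hub =>
    Integrable.of_bound hu.aestronglyMeasurable B (Eventually.of_forall fun x => by
      rw [Real.norm_eq_abs]
      exact hub x)
  have hI : ∀ u : Ω → ℝ, (∀ x, |u x| ≤ B) → |∫ x, u x ∂μ| ≤ B := fun u hub =>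
    abs_integral_le hub
  have h6 : |∏ i, ∫ x, f i x ∂μ - ∏ i, ∫ x, g i x ∂μ| ≤ ε / 4 := by
    refine (abs_prod_sub_prod_le Finset.univ (fun i => ∫ x, f i x ∂μ) (fun i => ∫ x, g i x ∂μ)
      (by linarith : (1 : ℝ) ≤ B) (fun i _ => hI _ (hfB i)) (fun i _ => hI _ (hgB i))).trans ?_
    refine le_trans ?_ hδ2
    rw [Finset.card_univ, Fintype.card_fin]
    refine mul_le_mul_of_nonneg_left ?_ hBp.le
    have : ∀ i, |∫ x, f i x ∂μ - ∫ x, g i x ∂μ| ≤ δ := by
      intro i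
      rw [← integral_sub (hi1 _ (hf i) (hfB i)) (hi1 _ (hgm i) (hgB i))]
      exact abs_integral_le fun x => hgf i x
    refine (Finset.sum_le_sum fun i _ => this i).trans ?_
    simp
  rw [abs_le] at h3 h5 h6
  rw [abs_lt]
  constructor <;> linarith [h3.1, h3.2, h5.1, h5.2, h6.1, h6.2]

end fun_form

end Vale.Agent.P102.H696
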